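import Vale.Agent.Lib.P054.Defs

/-! M10. ROUTE (Cauchy-Schwarz): `card A = ∑_{y ∈ image} card (fibre y)` (`Finset.card_eq_sum_card_image`), so by `sq_sum_le_card_mul_sum_sq`
`card A ^ 2 ≤ card image * ∑_y card (fibre y)^2`, and `∑_y card (fibre y)^2 = card {(a, a') : f a = f a'}` (fiberwise over `f p.1`;
the fibre over `y` is `fibre y ×ˢ fibre y`). -/

namespace Vale.Agent.Lib.P054

open Finset

theorem card_sq_le {α β : Type*} [DecidableEq α] [DecidableEq β] (A : Finset α) (f : α → β) :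
    A.card ^ 2 ≤ (A.image f).card * ((A ×ˢ A).filter (fun p => f p.1 = f p.2)).card := by
  classical
  have h1 : A.card = ∑ y ∈ A.image f, (A.filter (fun a => f a = y)).card :=
    Finset.card_eq_sum_card_image f A
  have h2 : ((A ×ˢ A).filter (fun p => f p.1 = f p.2)).card
      = ∑ y ∈ A.image f, (A.filter (fun a => f a = y)).card ^ 2 := by
    rw [Finset.card_eq_sum_card_fiberwise (f := fun p : α × α => f p.1) (t := A.image f)]
    · apply Finset.sum_congr rfl
      intro y _
      rw [pow_two, ← Finset.card_product]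
      congr 1
      ext ⟨a, b⟩
      simp only [mem_filter, mem_product]
      constructor
      · rintro ⟨⟨⟨ha, hb⟩, hab⟩, hy⟩
        exact ⟨⟨ha, hy⟩, ⟨hb, by rw [← hab]; exact hy⟩⟩
      · rintro ⟨⟨ha, hay⟩, ⟨hb, hby⟩⟩
        exact ⟨⟨⟨ha, hb⟩, by rw [hay, hby]⟩, hay⟩
    · intro p hp
      simp only [coe_filter, mem_product, Set.mem_ofPred_eq] at hp
      simp only [coe_image, Set.mem_image, mem_coe]
      exact ⟨p.1, hp.1.1, rfl⟩
  rw [h2]
  calc A.card ^ 2 = (∑ y ∈ A.image f, (A.filter (fun a => f a = y)).card) ^ 2 := by rw [← h1]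
    _ ≤ (A.image f).card * ∑ y ∈ A.image f, (A.filter (fun a => f a = y)).card ^ 2 :=
      sq_sum_le_card_mul_sum_sq

end Vale.Agent.Lib.P054
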