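import Vale.Agent.Lib.P054.Residue

/-! M3. ROUTE.
`card_line`: say `|a2| ≤ |a3|` (so `a3 ≠ 0`, `mx a2 a3 = |a3|`; the other case is symmetric: prove an auxiliary private lemma for this case and
get the other one by swapping the coordinates, `Finset.card_bij`/`Prod.swap`, `Int.gcd_comm`, `max_comm`).
The map `b ↦ b.1` is injective on the set (`b.2` is determined since `a3 ≠ 0`), and two solutions satisfy
`a2 (b.1 - b'.1) = - a3 (b.2 - b'.2)`, hence `|a3| / gcd ∣ b.1 - b'.1` (coprimality of `a2/gcd`, `a3/gcd`).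
If the set is empty: trivial. Else fix one solution `c`; the image of the set under `b ↦ b.1` is contained in
`(box s).filter (fun b => ((a3.natAbs / gcd : ℕ) : ℤ) ∣ b - c.1)`. Apply `card_residue` with `q = a3.natAbs / Int.gcd a2 a3`. -/

namespace Vale.Agent.Lib.P054

open Finset

private theorem card_line_aux (s : ℕ) (a2 a3 k : ℤ) (h3 : a3 ≠ 0) :
    (((box s ×ˢ box s).filter (fun b : ℤ × ℤ => a2 * b.1 + a3 * b.2 = k)).card : ℝ)
      ≤ 2 * s * (Int.gcd a2 a3 : ℝ) / ((|a3| : ℤ) : ℝ) + 1 := by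
  classical
  set S := (box s ×ˢ box s).filter (fun b : ℤ × ℤ => a2 * b.1 + a3 * b.2 = k) with hS
  set g := Int.gcd a2 a3 with hg
  have hgpos : 0 < g := Int.gcd_pos_of_ne_zero_right a2 h3
  have habs : (0 : ℝ) < ((|a3| : ℤ) : ℝ) := by
    exact_mod_cast abs_pos.mpr h3
  rcases S.eq_empty_or_nonempty with hemp | ⟨c, hc⟩
  · rw [hemp]
    simp only [Finset.card_empty, Nat.cast_zero]
    positivity
  set a2' := a2 / (g : ℤ) with ha2'
  set a3' := a3 / (g : ℤ) with ha3'
  have e2 : (g : ℤ) * a2' = a2 := Int.mul_ediv_cancel' (Int.gcd_dvd_left a2 a3)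
  have e3 : (g : ℤ) * a3' = a3 := Int.mul_ediv_cancel' (Int.gcd_dvd_right a2 a3)
  have hcop : IsCoprime a3' a2' := by
    rw [Int.isCoprime_iff_gcd_eq_one, Int.gcd_comm]
    exact Int.gcd_div_gcd_div_gcd hgpos
  have h3' : a3' ≠ 0 := by
    intro h0
    rw [h0, mul_zero] at e3
    exact h3 e3.symm
  set q := a3'.natAbs with hq
  have hqpos : 0 < q := Int.natAbs_pos.mpr h3'
  have hgz : (g : ℤ) ≠ 0 := by exact_mod_cast hgpos.ne'
  have hcS := (Finset.mem_filter.mp hc).2
  have hle : S.card ≤ ((box s).filter (fun b => (q : ℤ) ∣ b - c.1)).card := by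
    apply Finset.card_le_card_of_injOn (fun b => b.1)
    · intro b hb
      have hb' := Finset.mem_filter.mp (Finset.mem_coe.mp hb)
      have hbox := (Finset.mem_product.mp hb'.1).1
      refine Finset.mem_coe.mpr (Finset.mem_filter.mpr ⟨hbox, ?_⟩)
      have hbS := hb'.2
      have h1 : a3' * (c.2 - b.2) = a2' * (b.1 - c.1) := by
        apply mul_left_cancel₀ hgz
        rw [← mul_assoc, ← mul_assoc, e2, e3]
        linarith
      have h2 : a3' ∣ a2' * (b.1 - c.1) := ⟨_, h1.symm⟩
      have h4 : a3' ∣ b.1 - c.1 := hcop.dvd_of_dvd_mul_left h2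
      exact Int.natAbs_dvd.mpr h4
    · intro b hb b' hb' hbb
      have hbS := (Finset.mem_filter.mp (Finset.mem_coe.mp hb)).2
      have hbS' := (Finset.mem_filter.mp (Finset.mem_coe.mp hb')).2
      have hbb' : b.1 = b'.1 := hbb
      have h1 : a3 * b.2 = a3 * b'.2 := by
        rw [hbb'] at hbS
        linarith
      exact Prod.ext hbb' (mul_left_cancel₀ h3 h1)
  have hres := card_residue s q hqpos c.1
  have hcast : ((|a3| : ℤ) : ℝ) = (g : ℝ) * (q : ℝ) := by
    have h5 : |a3| = (g : ℤ) * (q : ℤ) := by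
      rw [← e3, abs_mul, hq, Int.natCast_natAbs, abs_of_nonneg (by positivity : (0 : ℤ) ≤ (g : ℤ))]
    rw [h5]
    push_cast
    ring
  have hgR : (0 : ℝ) < (g : ℝ) := by exact_mod_cast hgpos
  have hqR : (0 : ℝ) < (q : ℝ) := by exact_mod_cast hqpos
  calc (S.card : ℝ) ≤ (((box s).filter (fun b => (q : ℤ) ∣ b - c.1)).card : ℝ) := by
        exact_mod_cast hle
    _ ≤ 2 * s / q + 1 := hres
    _ = 2 * s * (g : ℝ) / ((|a3| : ℤ) : ℝ) + 1 := by
        rw [hcast]
        field_simp

theorem card_line (s : ℕ) (a2 a3 k : ℤ) (h : a2 ≠ 0 ∨ a3 ≠ 0) :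
    (((box s ×ˢ box s).filter (fun b : ℤ × ℤ => a2 * b.1 + a3 * b.2 = k)).card : ℝ)
      ≤ 2 * s * (Int.gcd a2 a3 : ℝ) / mx a2 a3 + 1 := by
  classical
  rcases le_total |a2| |a3| with hle | hle
  · have h3 : a3 ≠ 0 := by
      rintro rfl
      rcases h with h | h
      · simp only [abs_zero] at hle
        exact h (abs_eq_zero.mp (le_antisymm hle (abs_nonneg _)))
      · exact h rfl
    have := card_line_aux s a2 a3 k h3
    unfold mx
    rw [max_eq_right hle]
    exact this
  · have h2 : a2 ≠ 0 := by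
      rintro rfl
      rcases h with h | h
      · exact h rfl
      · simp only [abs_zero] at hle
        exact h (abs_eq_zero.mp (le_antisymm hle (abs_nonneg _)))
    have := card_line_aux s a3 a2 k h2
    unfold mx
    rw [max_eq_left hle, Int.gcd_comm]
    refine le_trans ?_ this
    have hcard : ((box s ×ˢ box s).filter (fun b : ℤ × ℤ => a2 * b.1 + a3 * b.2 = k)).card
        ≤ ((box s ×ˢ box s).filter (fun b : ℤ × ℤ => a3 * b.1 + a2 * b.2 = k)).card := by
      apply Finset.card_le_card_of_injOn Prod.swap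
      · intro b hb
        have hb' := Finset.mem_filter.mp (Finset.mem_coe.mp hb)
        have hbox := Finset.mem_product.mp hb'.1
        refine Finset.mem_coe.mpr (Finset.mem_filter.mpr
          ⟨Finset.mem_product.mpr ⟨hbox.2, hbox.1⟩, ?_⟩)
        have := hb'.2
        simp only [Prod.fst_swap, Prod.snd_swap]
        linarith
      · exact Prod.swap_injective.injOn
    exact_mod_cast hcard

end Vale.Agent.Lib.P054
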