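import Mathlib

/-! P054: distinct distances of subsets of the cubic grid. Basic definitions. -/

namespace Vale.Agent.Lib.P054

open Finset

/-- the integer interval `[-s, s]` -/
noncomputable def box (s : ℕ) : Finset ℤ := Finset.Icc (-(s : ℤ)) s

/-- the cube `[-s, s]^3` (as triples) -/
noncomputable def box3 (s : ℕ) : Finset (ℤ × ℤ × ℤ) := box s ×ˢ box s ×ˢ box s

/-- scalar product on `ℤ^3` -/
def dot (a b : ℤ × ℤ × ℤ) : ℤ := a.1 * b.1 + a.2.1 * b.2.1 + a.2.2 * b.2.2

/-- `max (|a2|, |a3|)` as a real number -/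
noncomputable def mx (a2 a3 : ℤ) : ℝ := ((max |a2| |a3| : ℤ) : ℝ)

/-- the cube `[-s, s]^d` (as functions) -/
noncomputable def cube (d s : ℕ) : Finset (Fin d → ℤ) := Fintype.piFinset (fun _ => box s)

/-- squared length of an integer vector -/
def sq {d : ℕ} (v : Fin d → ℤ) : ℤ := ∑ i, v i ^ 2

end Vale.Agent.Lib.P054
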