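import Vale.Agent.Lib.P054.Defs

/-! M12. ROUTE (real analysis only). Put `d = m + 3`, `θ = 2 - 2/d = (2 m + 4)/d > 0`. `T^(2m+4) = (T^d)^θ` (`Real.rpow_natCast`, `Real.rpow_mul`) `≤ (n/δ)^θ`
(`Real.rpow_le_rpow`, from `h2`) `= n^θ / δ^θ` (`Real.div_rpow`). `n^2/4 ≤ (n-1)^2` for `n ≥ 2`. Hence `n^2 / 4 ≤ C * (n^θ/δ^θ) * D`, i.e.
`δ^θ * n^(2 - θ) ≤ 4 C D` with `2 - θ = 2/d` (`Real.rpow_sub`, `Real.rpow_two`/`Real.rpow_natCast`). -/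

namespace Vale.Agent.Lib.P054

theorem density (m : ℕ) (C δ n T D : ℝ) (hC : 0 < C) (hδ : 0 < δ) (hn : 2 ≤ n) (hT : 0 ≤ T) (hD : 0 ≤ D)
    (h1 : (n - 1) ^ 2 ≤ C * T ^ (2 * m + 4) * D) (h2 : δ * T ^ (m + 3) ≤ n) :
    δ ^ (2 - 2 / ((m + 3 : ℕ) : ℝ)) * n ^ (2 / ((m + 3 : ℕ) : ℝ)) ≤ 4 * C * D := by
  have hn0 : 0 < n := by linarith
  set d : ℝ := ((m + 3 : ℕ) : ℝ) with hd
  have hdpos : 0 < d := by rw [hd]; positivity
  set θ : ℝ := 2 - 2 / d with hθ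
  have hθd : θ * d = ((2 * m + 4 : ℕ) : ℝ) := by
    rw [hθ, sub_mul, div_mul_cancel₀ _ hdpos.ne', hd]
    push_cast
    ring
  have hθpos : 0 < θ := by
    have : 0 < θ * d := by rw [hθd]; positivity
    exact (pos_iff_pos_of_mul_pos this).mpr hdpos
  have hTd : T ^ (m + 3) ≤ n / δ := by
    rw [le_div_iff₀ hδ]; linarith
  have hTpow : T ^ (2 * m + 4) = (T ^ (m + 3)) ^ θ := by
    rw [← Real.rpow_natCast T (m + 3), ← Real.rpow_mul hT, ← hd, mul_comm d θ, hθd, Real.rpow_natCast]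
  have hle : T ^ (2 * m + 4) ≤ n ^ θ / δ ^ θ := by
    rw [hTpow, ← Real.div_rpow hn0.le hδ.le]
    exact Real.rpow_le_rpow (by positivity) hTd hθpos.le
  have hsq : n ^ 2 / 4 ≤ (n - 1) ^ 2 := by nlinarith
  have hδθ : 0 < δ ^ θ := Real.rpow_pos_of_pos hδ θ
  have hnθ : 0 < n ^ θ := Real.rpow_pos_of_pos hn0 θ
  have h3 : n ^ 2 / 4 ≤ C * (n ^ θ / δ ^ θ) * D := by
    refine hsq.trans (h1.trans ?_)
    gcongr
  have hsplit : n ^ 2 = n ^ θ * n ^ (2 / d) := by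
    rw [← Real.rpow_add hn0, hθ]
    have : (2 - 2 / d + 2 / d : ℝ) = (2 : ℕ) := by push_cast; ring
    rw [this, Real.rpow_natCast]
  rw [hsplit] at h3
  have h4 : n ^ θ * n ^ (2 / d) / 4 * δ ^ θ ≤ C * n ^ θ * D := by
    have := mul_le_mul_of_nonneg_right h3 hδθ.le
    calc n ^ θ * n ^ (2 / d) / 4 * δ ^ θ ≤ C * (n ^ θ / δ ^ θ) * D * δ ^ θ := this
      _ = C * n ^ θ * D := by field_simp
  have h5 : n ^ θ * (δ ^ θ * n ^ (2 / d)) ≤ n ^ θ * (4 * C * D) := by nlinarith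
  exact le_of_mul_le_mul_left h5 hnθ

end Vale.Agent.Lib.P054
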