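import Vale.Agent.Lib.P054.Pi

/-! M9. ROUTE: `Finset.card_le_card_of_injOn` with `(v, w) ↦ (v - w, v + w)` into the set of `card_orth_pi m (2 t) _ 0`:
`|v i ± w i| ≤ 2 t`; `∑ (v i - w i) (v i + w i) = sq v - sq w = 0`; injective since `2 v = a + b`, `2 w = b - a` over `ℤ`. -/

namespace Vale.Agent.Lib.P054

open Finset

theorem card_energy (m t : ℕ) (ht : 1 ≤ t) :
    (((cube (m + 3) t ×ˢ cube (m + 3) t).filter (fun p => sq p.1 = sq p.2)).card : ℝ)
      ≤ 500 * 9 ^ m * ((2 * t : ℕ) : ℝ) ^ (2 * m + 4) := by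
  refine le_trans ?_ (card_orth_pi m (2 * t) (by omega) 0)
  norm_cast
  refine Finset.card_le_card_of_injOn (fun p => (p.1 - p.2, p.1 + p.2)) ?_ ?_
  · intro p hp
    have hp' := Finset.mem_filter.mp (Finset.mem_coe.mp hp)
    have h1 := Fintype.mem_piFinset.mp (Finset.mem_product.mp hp'.1).1
    have h2 := Fintype.mem_piFinset.mp (Finset.mem_product.mp hp'.1).2
    have hsq : sq p.1 = sq p.2 := hp'.2
    refine Finset.mem_coe.mpr (Finset.mem_filter.mpr ⟨Finset.mem_product.mpr ⟨?_, ?_⟩, ?_⟩)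
    · refine Fintype.mem_piFinset.mpr fun i => ?_
      have a := Finset.mem_Icc.mp (h1 i)
      have b := Finset.mem_Icc.mp (h2 i)
      refine Finset.mem_Icc.mpr ⟨?_, ?_⟩ <;> simp only [Pi.sub_apply] <;> push_cast <;> omega
    · refine Fintype.mem_piFinset.mpr fun i => ?_
      have a := Finset.mem_Icc.mp (h1 i)
      have b := Finset.mem_Icc.mp (h2 i)
      refine Finset.mem_Icc.mpr ⟨?_, ?_⟩ <;> simp only [Pi.add_apply] <;> push_cast <;> omega
    · have : ∑ i, (p.1 - p.2) i * (p.1 + p.2) i = sq p.1 - sq p.2 := by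
        simp only [sq, ← Finset.sum_sub_distrib, Pi.sub_apply, Pi.add_apply]
        refine Finset.sum_congr rfl fun i _ => ?_
        ring
      rw [this, hsq, sub_self]
  · intro p _ q _ h
    simp only [Prod.mk.injEq] at h
    obtain ⟨h1, h2⟩ := h
    refine Prod.ext ?_ ?_
    · funext i
      have a := congrFun h1 i
      have b := congrFun h2 i
      simp only [Pi.sub_apply, Pi.add_apply] at a b
      omega
    · funext i
      have a := congrFun h1 i
      have b := congrFun h2 i
      simp only [Pi.sub_apply, Pi.add_apply] at a b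
      omega

end Vale.Agent.Lib.P054
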