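import Vale.Agent.Lib.P054.PairSum

/-! M6. ROUTE.
`gcd_le_sum`: with `g = gcd a1 (gcd a2 a3)` one has `1 ≤ g ≤ s` (`g` divides a nonzero one of `a2, a3`, which has absolute value `≤ s`) and
`g ∣ a1, a2, a3`, so the term `e = g` of the (nonnegative) sum is `g` (`Finset.single_le_sum`).
`gcd_sum`: by `gcd_le_sum`, `g / mx ≤ ∑_{e=1}^s [e ∣ a1 ∧ e ∣ a2 ∧ e ∣ a3] e / mx`. Exchange the sums (`Finset.sum_comm`); for fixed `e` the sum over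
`a = (a1, (a2, a3))` factors (`Finset.sum_product`, `Finset.sum_filter`) as (number of `a1` in the box with `e ∣ a1`, which is
`≤ 2 s/e + 1 ≤ 3 s / e` by `card_residue` with `c = 0` and `e ≤ s`) times `e` times (the sum of `pair_sum`, `≤ 12 s / e^2`); so the `e`-term is
`≤ (3 s / e) * e * (12 s / e^2) = 36 s^2 / e^2`. Conclude with `sum_inv_sq`. -/

namespace Vale.Agent.Lib.P054

open Finset

theorem gcd_le_sum (s : ℕ) (a1 a2 a3 : ℤ) (h : a2 ≠ 0 ∨ a3 ≠ 0) (h2 : a2 ∈ box s) (h3 : a3 ∈ box s) :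
    (Int.gcd a1 (Int.gcd a2 a3) : ℝ)
      ≤ ∑ e ∈ Finset.Icc 1 s, if ((e : ℤ) ∣ a1 ∧ (e : ℤ) ∣ a2 ∧ (e : ℤ) ∣ a3) then (e : ℝ) else 0 := by
  set g := Int.gcd a1 (Int.gcd a2 a3) with hg
  have d1 : (g : ℤ) ∣ a1 := Int.gcd_dvd_left ..
  have d23 : (g : ℤ) ∣ (Int.gcd a2 a3 : ℤ) := Int.gcd_dvd_right ..
  have d2 : (g : ℤ) ∣ a2 := d23.trans (Int.gcd_dvd_left ..)
  have d3 : (g : ℤ) ∣ a3 := d23.trans (Int.gcd_dvd_right ..)
  have hle : ∀ a : ℤ, a ≠ 0 → a ∈ box s → (g : ℤ) ∣ a → 1 ≤ g ∧ g ≤ s := by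
    intro a ha hb hd
    have h1 : g ∣ a.natAbs := Int.natCast_dvd.mp hd
    have h2 : 0 < a.natAbs := Int.natAbs_pos.mpr ha
    have h3 : g ≤ a.natAbs := Nat.le_of_dvd h2 h1
    have h4 : 0 < g := Nat.pos_of_dvd_of_pos h1 h2
    have h5 : a.natAbs ≤ s := by
      unfold box at hb
      rw [Finset.mem_Icc] at hb
      omega
    exact ⟨h4, h3.trans h5⟩
  have hgs : 1 ≤ g ∧ g ≤ s := by
    rcases h with h | h
    · exact hle a2 h h2 d2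
    · exact hle a3 h h3 d3
  have hmem : g ∈ Finset.Icc 1 s := Finset.mem_Icc.mpr hgs
  have := Finset.single_le_sum
    (f := fun e : ℕ => if ((e : ℤ) ∣ a1 ∧ (e : ℤ) ∣ a2 ∧ (e : ℤ) ∣ a3) then (e : ℝ) else 0)
    (fun e _ => by split_ifs <;> positivity) hmem
  simpa [d1, d2, d3] using this

theorem gcd_sum (s : ℕ) :
    ∑ a ∈ (box3 s).filter (fun a => a.2.1 ≠ 0 ∨ a.2.2 ≠ 0),
      (Int.gcd a.1 (Int.gcd a.2.1 a.2.2) : ℝ) / mx a.2.1 a.2.2 ≤ 72 * (s : ℝ) ^ 2 := by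
  classical
  set F := (box3 s).filter (fun a => a.2.1 ≠ 0 ∨ a.2.2 ≠ 0) with hF
  have hmx : ∀ a2 a3 : ℤ, 0 ≤ mx a2 a3 := by
    intro a2 a3
    unfold mx
    exact_mod_cast le_max_of_le_left (abs_nonneg a2)
  have step1 : ∑ a ∈ F, (Int.gcd a.1 (Int.gcd a.2.1 a.2.2) : ℝ) / mx a.2.1 a.2.2
      ≤ ∑ a ∈ F, ∑ e ∈ Finset.Icc 1 s,
          (if ((e : ℤ) ∣ a.1 ∧ (e : ℤ) ∣ a.2.1 ∧ (e : ℤ) ∣ a.2.2)
            then (e : ℝ) * (1 / mx a.2.1 a.2.2) else 0) := by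
    apply Finset.sum_le_sum
    intro a ha
    rw [hF, Finset.mem_filter] at ha
    obtain ⟨hb, hne⟩ := ha
    unfold box3 at hb
    rw [Finset.mem_product, Finset.mem_product] at hb
    have h := gcd_le_sum s a.1 a.2.1 a.2.2 hne hb.2.1 hb.2.2
    have h' := mul_le_mul_of_nonneg_right h (one_div_nonneg.mpr (hmx a.2.1 a.2.2))
    rw [Finset.sum_mul] at h'
    calc (Int.gcd a.1 (Int.gcd a.2.1 a.2.2) : ℝ) / mx a.2.1 a.2.2
        = (Int.gcd a.1 (Int.gcd a.2.1 a.2.2) : ℝ) * (1 / mx a.2.1 a.2.2) := by ring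
      _ ≤ _ := h'
      _ = _ := by
        apply Finset.sum_congr rfl
        intro e _
        split_ifs <;> simp
  refine step1.trans ?_
  rw [Finset.sum_comm]
  have step2 : ∀ e ∈ Finset.Icc 1 s, ∑ a ∈ F,
      (if ((e : ℤ) ∣ a.1 ∧ (e : ℤ) ∣ a.2.1 ∧ (e : ℤ) ∣ a.2.2)
        then (e : ℝ) * (1 / mx a.2.1 a.2.2) else 0) ≤ 36 * (s : ℝ) ^ 2 * (1 / (e : ℝ) ^ 2) := by
    intro e he
    rw [Finset.mem_Icc] at he
    rw [← Finset.sum_filter]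
    have hset : F.filter (fun a => (e : ℤ) ∣ a.1 ∧ (e : ℤ) ∣ a.2.1 ∧ (e : ℤ) ∣ a.2.2)
        = ((box s).filter (fun b => (e : ℤ) ∣ b - 0)) ×ˢ
          ((box s ×ˢ box s).filter
            (fun a : ℤ × ℤ => (a.1 ≠ 0 ∨ a.2 ≠ 0) ∧ (e : ℤ) ∣ a.1 ∧ (e : ℤ) ∣ a.2)) := by
      ext a
      simp only [hF, box3, Finset.mem_filter, Finset.mem_product, sub_zero]
      tauto
    rw [hset, Finset.sum_product]
    set A := (box s).filter (fun b => (e : ℤ) ∣ b - 0) with hAdef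
    set B := (box s ×ˢ box s).filter
      (fun a : ℤ × ℤ => (a.1 ≠ 0 ∨ a.2 ≠ 0) ∧ (e : ℤ) ∣ a.1 ∧ (e : ℤ) ∣ a.2) with hBdef
    have hin : ∀ x ∈ A, ∑ y ∈ B, (e : ℝ) * (1 / mx (x, y).2.1 (x, y).2.2)
        = e * ∑ y ∈ B, 1 / mx y.1 y.2 := by
      intro x _
      rw [Finset.mul_sum]
    rw [Finset.sum_congr rfl hin, Finset.sum_const, nsmul_eq_mul]
    have hA := card_residue s e (by omega) 0
    have hB := pair_sum s e he.1
    have he' : (1 : ℝ) ≤ e := by exact_mod_cast he.1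
    have hes : (e : ℝ) ≤ s := by exact_mod_cast he.2
    have hepos : (0 : ℝ) < e := by linarith
    have hA' : (A.card : ℝ) ≤ 3 * s / e := by
      have h1 : (1 : ℝ) ≤ s / e := by
        rw [le_div_iff₀ hepos]
        linarith
      have h2 : 3 * (s : ℝ) / e = 2 * s / e + s / e := by ring
      rw [h2]
      linarith
    have hP0 : 0 ≤ ∑ y ∈ B, 1 / mx y.1 y.2 :=
      Finset.sum_nonneg (fun y _ => one_div_nonneg.mpr (hmx _ _))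
    calc (A.card : ℝ) * (e * ∑ y ∈ B, 1 / mx y.1 y.2)
        ≤ (3 * s / e) * (e * (12 * s / (e : ℝ) ^ 2)) := by gcongr
      _ = 36 * (s : ℝ) ^ 2 * (1 / (e : ℝ) ^ 2) := by
        field_simp
        ring
  calc _ ≤ ∑ e ∈ Finset.Icc 1 s, 36 * (s : ℝ) ^ 2 * (1 / (e : ℝ) ^ 2) := Finset.sum_le_sum step2
    _ = 36 * (s : ℝ) ^ 2 * ∑ e ∈ Finset.Icc 1 s, (1 : ℝ) / (e : ℝ) ^ 2 := by rw [Finset.mul_sum]
    _ ≤ 36 * (s : ℝ) ^ 2 * 2 := by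
      gcongr
      exact sum_inv_sq s
    _ = 72 * (s : ℝ) ^ 2 := by ring

end Vale.Agent.Lib.P054
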