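import Vale.Agent.Lib.P054.Residue

/-! M5. ROUTE.
`sum_inv_sq`: `∑_{e=1}^s 1/e^2 ≤ 2` (induction: `∑ ≤ 2 - 1/s` for `s ≥ 1`, using `1/(s+1)^2 ≤ 1/s - 1/(s+1)`).
`pair_sum`: for `1 ≤ e`: the index set is contained in the union of `U1 = {a : a.1 ≠ 0, |a.2| ≤ |a.1|, e ∣ a.1, e ∣ a.2}` and
`U2 = {a : a.2 ≠ 0, |a.1| ≤ |a.2|, ...}` (terms are nonnegative). On `U1`: `mx = |a.1|`, `e ≤ |a.1|`, and for fixed `a.1` the number of `a.2` with
`|a.2| ≤ |a.1|`, `e ∣ a.2` is `≤ 2|a.1|/e + 1 ≤ 3|a.1|/e` (`card_residue` with `s = a.1.natAbs`, `c = 0`), so the inner sum is `≤ 3/e`;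
the number of `a.1 ≠ 0` in the box with `e ∣ a.1` is `≤ 2 s / e` (`card_residue` gives `2s/e + 1` including `0`). So the `U1`-sum is
`≤ (2 s / e) * (3 / e) = 6 s / e^2`; the same for `U2` (symmetric; prove one private lemma and swap). -/

namespace Vale.Agent.Lib.P054

open Finset

private theorem sum_inv_sq_aux (s : ℕ) :
    ∑ e ∈ Finset.Icc 1 (s + 1), (1 : ℝ) / (e : ℝ) ^ 2 ≤ 2 - 1 / ((s : ℝ) + 1) := by
  induction s with
  | zero =>
    simp
    norm_num
  | succ k ih =>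
    rw [Finset.sum_Icc_succ_top (by omega)]
    have h1 : (1 : ℝ) / (((k + 1 + 1 : ℕ) : ℝ)) ^ 2 ≤ 1 / ((k : ℝ) + 1) - 1 / ((k : ℝ) + 1 + 1) := by
      push_cast
      rw [div_sub_div _ _ (by positivity) (by positivity),
        div_le_div_iff₀ (by positivity) (by positivity)]
      nlinarith
    push_cast at *
    linarith

theorem sum_inv_sq (s : ℕ) : ∑ e ∈ Finset.Icc 1 s, (1 : ℝ) / (e : ℝ) ^ 2 ≤ 2 := by
  cases s with
  | zero => simp
  | succ k =>
    have h := sum_inv_sq_aux k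
    have h2 : (0 : ℝ) ≤ 1 / ((k : ℝ) + 1) := by positivity
    linarith

/-- the summand of the half sum -/
private noncomputable def G (e : ℕ) (x y : ℤ) : ℝ :=
  if (x ≠ 0 ∧ |y| ≤ |x| ∧ (e : ℤ) ∣ x ∧ (e : ℤ) ∣ y) then 1 / ((|x| : ℤ) : ℝ) else 0

private theorem G_nonneg (e : ℕ) (x y : ℤ) : 0 ≤ G e x y := by
  unfold G
  split_ifs
  · have : (0 : ℝ) ≤ ((|x| : ℤ) : ℝ) := by exact_mod_cast abs_nonneg x
    positivity
  · exact le_refl _

private theorem half_sum (s e : ℕ) (he : 1 ≤ e) :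
    ∑ x ∈ box s, ∑ y ∈ box s, G e x y ≤ 6 * s / (e : ℝ) ^ 2 := by
  classical
  have hepos : (0 : ℝ) < e := by exact_mod_cast he
  have hinner : ∀ x ∈ box s, ∑ y ∈ box s, G e x y
      ≤ if (x ≠ 0 ∧ (e : ℤ) ∣ x - 0) then 3 / (e : ℝ) else 0 := by
    intro x hx
    by_cases hc : x ≠ 0 ∧ (e : ℤ) ∣ x - 0
    · rw [if_pos hc]
      obtain ⟨hx0, hdx⟩ := hc
      rw [sub_zero] at hdx
      have h1 : ∑ y ∈ box s, G e x y
          = ∑ y ∈ (box s).filter (fun y => |y| ≤ |x| ∧ (e : ℤ) ∣ y), 1 / ((|x| : ℤ) : ℝ) := by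
        rw [Finset.sum_filter]
        apply Finset.sum_congr rfl
        intro y _
        unfold G
        simp only [hx0, hdx, ne_eq, not_false_eq_true, true_and]
      rw [h1, Finset.sum_const, nsmul_eq_mul]
      have hsub : (box s).filter (fun y => |y| ≤ |x| ∧ (e : ℤ) ∣ y)
          ⊆ (box x.natAbs).filter (fun b => (e : ℤ) ∣ b - 0) := by
        intro y hy
        rw [Finset.mem_filter] at hy ⊢
        refine ⟨?_, by simpa using hy.2.2⟩
        unfold box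
        rw [Finset.mem_Icc, Int.natCast_natAbs]
        exact abs_le.mp hy.2.1
      have hcard := (Nat.cast_le (α := ℝ)).mpr (Finset.card_le_card hsub)
      have hres := card_residue x.natAbs e (by omega) 0
      have hxabs : ((|x| : ℤ) : ℝ) = (x.natAbs : ℝ) := by
        rw [← Int.natCast_natAbs]
        simp
      have hle : (e : ℝ) ≤ x.natAbs := by
        have h1 : e ∣ x.natAbs := Int.natCast_dvd.mp hdx
        exact_mod_cast Nat.le_of_dvd (Int.natAbs_pos.mpr hx0) h1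
      rw [hxabs]
      have hm : (0 : ℝ) < (x.natAbs : ℝ) := by linarith
      have h3 : (((box s).filter (fun y => |y| ≤ |x| ∧ (e : ℤ) ∣ y)).card : ℝ)
          ≤ 3 * (x.natAbs : ℝ) / e := by
        have h4 : (1 : ℝ) ≤ (x.natAbs : ℝ) / e := by
          rw [le_div_iff₀ hepos]
          linarith
        have h5 : 3 * (x.natAbs : ℝ) / e = 2 * (x.natAbs : ℝ) / e + (x.natAbs : ℝ) / e := by ring
        rw [h5]
        linarith
      calc (((box s).filter (fun y => |y| ≤ |x| ∧ (e : ℤ) ∣ y)).card : ℝ) * (1 / (x.natAbs : ℝ))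
          ≤ (3 * (x.natAbs : ℝ) / e) * (1 / (x.natAbs : ℝ)) := by gcongr
        _ = 3 / e := by
          field_simp
    · rw [if_neg hc]
      apply le_of_eq
      apply Finset.sum_eq_zero
      intro y _
      unfold G
      rw [if_neg]
      intro h
      exact hc ⟨h.1, by simpa using h.2.2.1⟩
  refine (Finset.sum_le_sum hinner).trans ?_
  rw [← Finset.sum_filter, Finset.sum_const, nsmul_eq_mul]
  have hcard : (((box s).filter (fun x => x ≠ 0 ∧ (e : ℤ) ∣ x - 0)).card : ℝ) ≤ 2 * s / e := by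
    have hres := card_residue s e (by omega) 0
    have heq : (box s).filter (fun x => x ≠ 0 ∧ (e : ℤ) ∣ x - 0)
        = ((box s).filter (fun b => (e : ℤ) ∣ b - 0)).erase 0 := by
      ext x
      simp only [Finset.mem_filter, Finset.mem_erase]
      tauto
    have h0 : (0 : ℤ) ∈ (box s).filter (fun b => (e : ℤ) ∣ b - 0) := by
      rw [Finset.mem_filter]
      refine ⟨?_, by simp⟩
      unfold box
      rw [Finset.mem_Icc]
      constructor <;> omega
    rw [heq, Finset.card_erase_of_mem h0]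
    have hpos : 1 ≤ ((box s).filter (fun b => (e : ℤ) ∣ b - 0)).card :=
      Finset.card_pos.mpr ⟨0, h0⟩
    rw [Nat.cast_sub hpos]
    push_cast
    linarith
  calc (((box s).filter (fun x => x ≠ 0 ∧ (e : ℤ) ∣ x - 0)).card : ℝ) * (3 / (e : ℝ))
      ≤ (2 * s / e) * (3 / e) := by gcongr
    _ = 6 * s / (e : ℝ) ^ 2 := by
      field_simp
      ring

theorem pair_sum (s e : ℕ) (he : 1 ≤ e) :
    ∑ a ∈ (box s ×ˢ box s).filter (fun a : ℤ × ℤ => (a.1 ≠ 0 ∨ a.2 ≠ 0) ∧ (e : ℤ) ∣ a.1 ∧ (e : ℤ) ∣ a.2),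
      1 / mx a.1 a.2 ≤ 12 * s / (e : ℝ) ^ 2 := by
  classical
  have hpt : ∀ a ∈ (box s ×ˢ box s).filter
      (fun a : ℤ × ℤ => (a.1 ≠ 0 ∨ a.2 ≠ 0) ∧ (e : ℤ) ∣ a.1 ∧ (e : ℤ) ∣ a.2),
      1 / mx a.1 a.2 ≤ G e a.1 a.2 + G e a.2 a.1 := by
    intro a ha
    rw [Finset.mem_filter] at ha
    obtain ⟨_, hne, hd1, hd2⟩ := ha
    rcases le_total |a.2| |a.1| with hl | hl
    · have h1 : a.1 ≠ 0 := by
        intro h0
        rw [h0, abs_zero] at hl
        have h2 : a.2 = 0 := abs_eq_zero.mp (le_antisymm hl (abs_nonneg _))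
        rcases hne with h | h
        · exact h h0
        · exact h h2
      have hG : G e a.1 a.2 = 1 / mx a.1 a.2 := by
        unfold G mx
        rw [if_pos ⟨h1, hl, hd1, hd2⟩, max_eq_left hl]
      have := G_nonneg e a.2 a.1
      linarith
    · have h1 : a.2 ≠ 0 := by
        intro h0
        rw [h0, abs_zero] at hl
        have h2 : a.1 = 0 := abs_eq_zero.mp (le_antisymm hl (abs_nonneg _))
        rcases hne with h | h
        · exact h h2
        · exact h h0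
      have hG : G e a.2 a.1 = 1 / mx a.1 a.2 := by
        unfold G mx
        rw [if_pos ⟨h1, hl, hd2, hd1⟩, max_eq_right hl]
      have := G_nonneg e a.1 a.2
      linarith
  have h1 : ∑ a ∈ box s ×ˢ box s, G e a.1 a.2 ≤ 6 * s / (e : ℝ) ^ 2 := by
    rw [Finset.sum_product]
    exact half_sum s e he
  have h2 : ∑ a ∈ box s ×ˢ box s, G e a.2 a.1 ≤ 6 * s / (e : ℝ) ^ 2 := by
    rw [Finset.sum_product, Finset.sum_comm]
    exact half_sum s e he
  calc _ ≤ ∑ a ∈ (box s ×ˢ box s).filter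
        (fun a : ℤ × ℤ => (a.1 ≠ 0 ∨ a.2 ≠ 0) ∧ (e : ℤ) ∣ a.1 ∧ (e : ℤ) ∣ a.2),
        (G e a.1 a.2 + G e a.2 a.1) := Finset.sum_le_sum hpt
    _ ≤ ∑ a ∈ box s ×ˢ box s, (G e a.1 a.2 + G e a.2 a.1) :=
        Finset.sum_le_sum_of_subset_of_nonneg (Finset.filter_subset _ _)
          (fun a _ _ => add_nonneg (G_nonneg _ _ _) (G_nonneg _ _ _))
    _ = ∑ a ∈ box s ×ˢ box s, G e a.1 a.2 + ∑ a ∈ box s ×ˢ box s, G e a.2 a.1 :=
        Finset.sum_add_distrib
    _ ≤ 6 * s / (e : ℝ) ^ 2 + 6 * s / (e : ℝ) ^ 2 := add_le_add h1 h2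
    _ = 12 * s / (e : ℝ) ^ 2 := by ring

end Vale.Agent.Lib.P054
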