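import Vale.Agent.Lib.P054.Total

/-! M8. ROUTE.
`card_orth_fin3`: `Finset.card_le_card_of_injOn` with `p ↦ ((p.1 0, p.1 1, p.1 2), (p.2 0, p.2 1, p.2 2))` into the set of `card_orth`
(`Fin.sum_univ_three`, `Fintype.mem_piFinset`, injectivity by `funext` + `Fin.forall_fin_succ`/`fin_cases`).
`card_orth_succ`: split according to `(p.1 0, p.2 0) ∈ box s ×ˢ box s` (`Finset.card_eq_sum_card_fiberwise`; `card (box s) = 2 s + 1` by `Int.card_Icc`);
the fibre over `(x, y)` injects by `p ↦ (Fin.tail p.1, Fin.tail p.2)` into the `d`-dimensional set with `k - x * y` (`Fin.sum_univ_succ`).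
`card_orth_pi`: induction on `m` (generalizing `k`), base `card_orth_fin3`, step `card_orth_succ` with `(2 s + 1)^2 ≤ 9 s^2`
(`m + 1 + 3` and `m + 3 + 1` are definitionally equal). -/

namespace Vale.Agent.Lib.P054

open Finset

theorem card_orth_fin3 (s : ℕ) (hs : 1 ≤ s) (k : ℤ) :
    (((cube 3 s ×ˢ cube 3 s).filter (fun p => ∑ i, p.1 i * p.2 i = k)).card : ℝ) ≤ 500 * (s : ℝ) ^ 4 := by
  refine le_trans ?_ (card_orth s hs k)
  norm_cast
  refine Finset.card_le_card_of_injOn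
    (fun p => ((p.1 0, p.1 1, p.1 2), (p.2 0, p.2 1, p.2 2))) ?_ ?_
  · intro p hp
    simp only [Finset.coe_filter, Finset.mem_product, cube, Fintype.mem_piFinset,
      Set.mem_ofPred_eq, Fin.sum_univ_three] at hp
    refine Finset.mem_coe.mpr (Finset.mem_filter.mpr ⟨Finset.mem_product.mpr ⟨?_, ?_⟩, hp.2⟩)
    · exact Finset.mem_product.mpr ⟨hp.1.1 0, Finset.mem_product.mpr ⟨hp.1.1 1, hp.1.1 2⟩⟩
    · exact Finset.mem_product.mpr ⟨hp.1.2 0, Finset.mem_product.mpr ⟨hp.1.2 1, hp.1.2 2⟩⟩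
  · intro p _ q _ h
    simp only [Prod.mk.injEq] at h
    obtain ⟨⟨h1, h2, h3⟩, h4, h5, h6⟩ := h
    refine Prod.ext ?_ ?_
    · funext i; fin_cases i <;> assumption
    · funext i; fin_cases i <;> assumption

theorem card_orth_succ (d s : ℕ) (B : ℝ)
    (hB : ∀ k : ℤ, (((cube d s ×ˢ cube d s).filter (fun p => ∑ i, p.1 i * p.2 i = k)).card : ℝ) ≤ B) (k : ℤ) :
    (((cube (d + 1) s ×ˢ cube (d + 1) s).filter (fun p => ∑ i, p.1 i * p.2 i = k)).card : ℝ)
      ≤ (2 * (s : ℝ) + 1) ^ 2 * B := by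
  classical
  set S := (cube (d + 1) s ×ˢ cube (d + 1) s).filter (fun p => ∑ i, p.1 i * p.2 i = k) with hS
  have hmaps : ∀ p ∈ S, (p.1 0, p.2 0) ∈ box s ×ˢ box s := by
    intro p hp
    simp only [hS, Finset.mem_filter, Finset.mem_product, cube, Fintype.mem_piFinset] at hp
    exact Finset.mem_product.mpr ⟨hp.1.1 0, hp.1.2 0⟩
  have h1 := Finset.card_eq_sum_card_fiberwise (f := fun p : (Fin (d + 1) → ℤ) × (Fin (d + 1) → ℤ) =>
    (p.1 0, p.2 0)) (s := S) (t := box s ×ˢ box s) hmaps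
  have hfib : ∀ xy ∈ box s ×ˢ box s,
      (((S.filter (fun p => (p.1 0, p.2 0) = xy)).card : ℕ) : ℝ) ≤ B := by
    intro xy _
    refine le_trans ?_ (hB (k - xy.1 * xy.2))
    norm_cast
    refine Finset.card_le_card_of_injOn (fun p => (Fin.tail p.1, Fin.tail p.2)) ?_ ?_
    · intro p hp
      simp only [hS, Finset.coe_filter, Finset.mem_filter, Finset.mem_product, cube,
        Fintype.mem_piFinset, Set.mem_ofPred_eq, Fin.sum_univ_succ] at hp
      obtain ⟨⟨⟨ha, hb⟩, hk⟩, hxy⟩ := hp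
      refine Finset.mem_coe.mpr (Finset.mem_filter.mpr ⟨Finset.mem_product.mpr ⟨?_, ?_⟩, ?_⟩)
      · exact Fintype.mem_piFinset.mpr fun i => ha i.succ
      · exact Fintype.mem_piFinset.mpr fun i => hb i.succ
      · rw [← hxy]
        simp only [Fin.tail]
        linarith
    · intro p hp q hq h
      simp only [Finset.coe_filter, Set.mem_ofPred_eq] at hp hq
      have hp0 := hp.2
      have hq0 := hq.2
      simp only [Prod.mk.injEq] at h
      have e1 : p.1 0 = q.1 0 := by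
        have := congrArg Prod.fst (hp0.trans hq0.symm); exact this
      have e2 : p.2 0 = q.2 0 := by
        have := congrArg Prod.snd (hp0.trans hq0.symm); exact this
      refine Prod.ext ?_ ?_
      · funext i
        refine Fin.cases e1 (fun j => ?_) i
        exact congrFun h.1 j
      · funext i
        refine Fin.cases e2 (fun j => ?_) i
        exact congrFun h.2 j
  have hcard : ((box s ×ˢ box s).card : ℝ) = (2 * (s : ℝ) + 1) ^ 2 := by
    have hb : (box s).card = 2 * s + 1 := by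
      simp only [box, Int.card_Icc]
      omega
    rw [Finset.card_product, hb]
    push_cast
    ring
  rw [h1]
  push_cast
  calc ∑ xy ∈ box s ×ˢ box s, (((S.filter (fun p => (p.1 0, p.2 0) = xy)).card : ℕ) : ℝ)
      ≤ ∑ _xy ∈ box s ×ˢ box s, B := Finset.sum_le_sum hfib
    _ = (2 * (s : ℝ) + 1) ^ 2 * B := by
        rw [Finset.sum_const, nsmul_eq_mul, hcard]

theorem card_orth_pi (m s : ℕ) (hs : 1 ≤ s) (k : ℤ) :
    (((cube (m + 3) s ×ˢ cube (m + 3) s).filter (fun p => ∑ i, p.1 i * p.2 i = k)).card : ℝ)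
      ≤ 500 * 9 ^ m * (s : ℝ) ^ (2 * m + 4) := by
  induction m generalizing k with
  | zero => simpa using card_orth_fin3 s hs k
  | succ m ih =>
    have h := card_orth_succ (m + 3) s _ ih k
    have hs' : (1 : ℝ) ≤ s := by exact_mod_cast hs
    have h9 : (2 * (s : ℝ) + 1) ^ 2 ≤ 9 * (s : ℝ) ^ 2 := by nlinarith
    have hnn : (0 : ℝ) ≤ 500 * 9 ^ m * (s : ℝ) ^ (2 * m + 4) := by positivity
    calc (((cube (m + 1 + 3) s ×ˢ cube (m + 1 + 3) s).filter
          (fun p => ∑ i, p.1 i * p.2 i = k)).card : ℝ)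
        ≤ (2 * (s : ℝ) + 1) ^ 2 * (500 * 9 ^ m * (s : ℝ) ^ (2 * m + 4)) := h
      _ ≤ 9 * (s : ℝ) ^ 2 * (500 * 9 ^ m * (s : ℝ) ^ (2 * m + 4)) := by gcongr
      _ = 500 * 9 ^ (m + 1) * (s : ℝ) ^ (2 * (m + 1) + 4) := by ring

end Vale.Agent.Lib.P054
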