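import Vale.Agent.Lib.P054.Energy
import Vale.Agent.Lib.P054.CS

/-! M11. ROUTE: `A = P.erase p`, `card A = card P - 1`, `f = dist p`. By `card_sq_le`, `card A ^ 2 ≤ card (image) * card {(q, q') ∈ A × A : dist p q = dist p q'}`.
The last set injects into the set of `card_energy m t` by `(q, q') ↦ (Z q - Z p, Z q' - Z p)` where `Z q = fun i => ⌊q i⌋` (for `q ∈ P`: `q i = (Z q i : ℝ)`,
`1 ≤ Z q i ≤ t`, so `|Z q i - Z p i| ≤ t`); `dist p q ^ 2 = ∑ (p i - q i)^2 = ((sq (Z q - Z p) : ℤ) : ℝ)` (`EuclideanSpace.dist_eq`, `Real.sq_sqrt`,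
`Real.dist_eq`, `sq_abs`), so equal distances give equal `sq` (`Int.cast_injective`). Injectivity: `Z` is injective on `P` (`PiLp.ext`/`funext`). -/

namespace Vale.Agent.Lib.P054

open Finset

/-- integer vector of a point -/
private noncomputable def Z {d : ℕ} (q : EuclideanSpace ℝ (Fin d)) : Fin d → ℤ := fun i => ⌊q i⌋

private theorem dist_sq_eq {d : ℕ} (p q : EuclideanSpace ℝ (Fin d))
    (hp : ∀ i, p i = (Z p i : ℝ)) (hq : ∀ i, q i = (Z q i : ℝ)) :
    dist p q ^ 2 = ((sq (Z q - Z p) : ℤ) : ℝ) := by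
  rw [EuclideanSpace.dist_eq, Real.sq_sqrt (Finset.sum_nonneg (fun i _ => sq_nonneg _))]
  unfold sq
  push_cast
  refine Finset.sum_congr rfl (fun i _ => ?_)
  rw [Real.dist_eq, sq_abs, hp i, hq i]
  simp only [Pi.sub_apply]
  push_cast
  ring

open Classical in
theorem pinned (m t : ℕ) (ht : 1 ≤ t) (P : Finset (EuclideanSpace ℝ (Fin (m + 3))))
    (hP : ∀ q ∈ P, ∀ i, ∃ z : ℕ, 1 ≤ z ∧ z ≤ t ∧ q i = (z : ℝ))
    (p : EuclideanSpace ℝ (Fin (m + 3))) (hp : p ∈ P) :
    ((P.card : ℝ) - 1) ^ 2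
      ≤ 500 * 9 ^ m * ((2 * t : ℕ) : ℝ) ^ (2 * m + 4) * (((P.erase p).image (fun q => dist p q)).card : ℝ) := by
  have hZ : ∀ q ∈ P, ∀ i, q i = (Z q i : ℝ) ∧ 1 ≤ Z q i ∧ Z q i ≤ t := by
    intro q hq i
    obtain ⟨z, h1, h2, h3⟩ := hP q hq i
    have : Z q i = (z : ℤ) := by
      unfold Z
      rw [h3]
      exact_mod_cast Int.floor_natCast z
    rw [this]
    refine ⟨by rw [h3]; norm_cast, by exact_mod_cast h1, by exact_mod_cast h2⟩
  have hcs := card_sq_le (P.erase p) (fun q => dist p q)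
  have hcard : ((P.erase p).card : ℝ) = (P.card : ℝ) - 1 := by
    rw [Finset.card_erase_of_mem hp, Nat.cast_sub (Finset.card_pos.mpr ⟨p, hp⟩)]
    simp
  have hinj : (((P.erase p) ×ˢ (P.erase p)).filter (fun x => dist p x.1 = dist p x.2)).card
      ≤ ((cube (m + 3) t ×ˢ cube (m + 3) t).filter (fun x => sq x.1 = sq x.2)).card := by
    refine Finset.card_le_card_of_injOn (fun x => (Z x.1 - Z p, Z x.2 - Z p)) ?_ ?_
    · intro x hx
      have hx' := Finset.mem_filter.mp (Finset.mem_coe.mp hx)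
      obtain ⟨hx1, hx2⟩ := Finset.mem_product.mp hx'.1
      have h1 := Finset.mem_of_mem_erase hx1
      have h2 := Finset.mem_of_mem_erase hx2
      refine Finset.mem_coe.mpr (Finset.mem_filter.mpr ⟨Finset.mem_product.mpr ⟨?_, ?_⟩, ?_⟩)
      · unfold cube box
        rw [Fintype.mem_piFinset]
        intro i
        rw [Finset.mem_Icc]
        have a := hZ _ h1 i
        have b := hZ _ hp i
        simp only [Pi.sub_apply]
        constructor <;> omega
      · unfold cube box
        rw [Fintype.mem_piFinset]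
        intro i
        rw [Finset.mem_Icc]
        have a := hZ _ h2 i
        have b := hZ _ hp i
        simp only [Pi.sub_apply]
        constructor <;> omega
      · have e1 := dist_sq_eq p x.1 (fun i => (hZ _ hp i).1) (fun i => (hZ _ h1 i).1)
        have e2 := dist_sq_eq p x.2 (fun i => (hZ _ hp i).1) (fun i => (hZ _ h2 i).1)
        have : ((sq (Z x.1 - Z p) : ℤ) : ℝ) = ((sq (Z x.2 - Z p) : ℤ) : ℝ) := by
          rw [← e1, ← e2, hx'.2]
        exact_mod_cast this
    · intro x hx y hy hxy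
      have hx' := Finset.mem_filter.mp (Finset.mem_coe.mp hx)
      have hy' := Finset.mem_filter.mp (Finset.mem_coe.mp hy)
      obtain ⟨hx1, hx2⟩ := Finset.mem_product.mp hx'.1
      obtain ⟨hy1, hy2⟩ := Finset.mem_product.mp hy'.1
      have key : ∀ a ∈ P, ∀ b ∈ P, Z a - Z p = Z b - Z p → a = b := by
        intro a ha b hb hab
        have : Z a = Z b := sub_left_injective hab
        ext i
        rw [(hZ a ha i).1, (hZ b hb i).1, this]
      have e := Prod.mk.inj hxy
      exact Prod.ext (key _ (Finset.mem_of_mem_erase hx1) _ (Finset.mem_of_mem_erase hy1) e.1)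
        (key _ (Finset.mem_of_mem_erase hx2) _ (Finset.mem_of_mem_erase hy2) e.2)
  have hE := card_energy m t ht
  have h1 : (((P.erase p).card : ℝ)) ^ 2 ≤ (((P.erase p).image (fun q => dist p q)).card : ℝ)
      * ((((P.erase p) ×ˢ (P.erase p)).filter (fun x => dist p x.1 = dist p x.2)).card : ℝ) := by
    exact_mod_cast hcs
  rw [← hcard]
  calc (((P.erase p).card : ℝ)) ^ 2 ≤ (((P.erase p).image (fun q => dist p q)).card : ℝ)
      * ((((P.erase p) ×ˢ (P.erase p)).filter (fun x => dist p x.1 = dist p x.2)).card : ℝ) := h1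
    _ ≤ (((P.erase p).image (fun q => dist p q)).card : ℝ)
      * (500 * 9 ^ m * ((2 * t : ℕ) : ℝ) ^ (2 * m + 4)) := by
        refine mul_le_mul_of_nonneg_left (le_trans ?_ hE) (by positivity)
        exact_mod_cast hinj
    _ = _ := by ring

end Vale.Agent.Lib.P054
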