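import Vale.Agent.Lib.P054.Residue

/-! M2. ROUTE.
`card_solv`: if `b, b'` both satisfy `h ∣ k - a1 b` then `h ∣ a1 (b - b')`, hence `h / g ∣ b - b'` with `g = gcd a1 h`
(`Int.gcd`, coprimality of `a1/g`, `h/g`: `Int.isCoprime_div_gcd_div_gcd` or `Int.gcd_div_gcd_div_gcd`, `IsCoprime.dvd_of_dvd_mul_left`).
If the set is empty the bound is trivial, else take one element `c` of it: the set is contained in
`(box s).filter (fun b => ((h / g : ℕ) : ℤ) ∣ b - c)`; apply `card_residue` with `q = h / g`; `2 s / (h/g) = 2 s g / h` since `g ∣ h`. -/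

namespace Vale.Agent.Lib.P054

open Finset

theorem card_solv (s h : ℕ) (hh : 0 < h) (a1 k : ℤ) :
    (((box s).filter (fun b => (h : ℤ) ∣ k - a1 * b)).card : ℝ)
      ≤ 2 * s * (Int.gcd a1 h : ℝ) / h + 1 := by
  classical
  set g := Int.gcd a1 h with hg
  have hgpos : 0 < g := Int.gcd_pos_of_ne_zero_right _ (by exact_mod_cast hh.ne')
  have hgh : (g : ℤ) ∣ (h : ℤ) := Int.gcd_dvd_right a1 h
  obtain ⟨q, hq⟩ : g ∣ h := Int.natCast_dvd_natCast.mp hgh
  obtain ⟨a', ha'⟩ : (g : ℤ) ∣ a1 := Int.gcd_dvd_left a1 h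
  have hqpos : 0 < q := by
    rcases Nat.eq_zero_or_pos q with h0 | h0
    · rw [h0, Nat.mul_zero] at hq
      omega
    · exact h0
  have hcop : Int.gcd a' q = 1 := by
    have h1 : Int.gcd a1 h = g * Int.gcd a' q := by
      rw [ha', hq]
      push_cast
      rw [Int.gcd_mul_left]
      simp
    rw [← hg] at h1
    have h2 : g * 1 = g * Int.gcd a' q := by
      rw [Nat.mul_one]
      exact h1
    exact (Nat.eq_of_mul_eq_mul_left hgpos h2).symm
  have hcop' : IsCoprime (q : ℤ) a' := by
    rw [Int.isCoprime_iff_gcd_eq_one, Int.gcd_comm]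
    exact hcop
  have hfin : (2 * s * (g : ℝ) / h + 1 : ℝ) = 2 * s / q + 1 := by
    rw [hq]
    push_cast
    have h1 : (g : ℝ) ≠ 0 := by exact_mod_cast hgpos.ne'
    have h2 : (q : ℝ) ≠ 0 := by exact_mod_cast hqpos.ne'
    field_simp
  rw [hfin]
  rcases ((box s).filter (fun b => (h : ℤ) ∣ k - a1 * b)).eq_empty_or_nonempty with he | ⟨c, hc⟩
  · rw [he]
    simp only [Finset.card_empty, Nat.cast_zero]
    positivity
  · refine le_trans ?_ (card_residue s q hqpos c)
    have hsub : (box s).filter (fun b => (h : ℤ) ∣ k - a1 * b)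
        ⊆ (box s).filter (fun b => (q : ℤ) ∣ b - c) := by
      intro b hb
      rw [Finset.mem_filter] at hb hc ⊢
      refine ⟨hb.1, ?_⟩
      have h1 : (h : ℤ) ∣ a1 * (b - c) := by
        have := dvd_sub hc.2 hb.2
        have e : k - a1 * c - (k - a1 * b) = a1 * (b - c) := by ring
        rwa [e] at this
      have h2 : (g : ℤ) * q ∣ (g : ℤ) * ((b - c) * a') := by
        have e : a1 * (b - c) = (g : ℤ) * ((b - c) * a') := by
          rw [ha']
          ring
        rw [← e]
        have e2 : ((g : ℤ) * q) = (h : ℤ) := by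
          rw [hq]
          push_cast
          ring
        rw [e2]
        exact h1
      have h3 : (q : ℤ) ∣ (b - c) * a' :=
        (mul_dvd_mul_iff_left (by exact_mod_cast hgpos.ne')).mp h2
      exact hcop'.dvd_of_dvd_mul_right h3
    exact_mod_cast Finset.card_le_card hsub

end Vale.Agent.Lib.P054
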