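import Vale.Agent.Lib.P054.Line
import Vale.Agent.Lib.P054.Solv

/-! M4. ROUTE: split the set according to `b.1` (`Finset.card_eq_sum_card_fiberwise`, or `Finset.card_filter_product`-like rewriting,
or bound the set by a `Finset.biUnion`/`Finset.sigma`). For fixed `b.1` the equation is `a2 b2 + a3 b3 = k - a1 b1`; it has no solution
unless `gcd a2 a3 ∣ k - a1 b1` (`Int.gcd_dvd_left/right`), and at most `2 s gcd / mx + 1` solutions by `card_line`.
The number of admissible `b.1` is bounded by `card_solv` with `h = gcd a2 a3 > 0`.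
`card_plane'` follows from `card_plane`: with `g ≤ h ≤ mx` (`g ∣ h`, `h ∣ a2, a3`, not both zero),
`(2 s g/h + 1)(2 s h/mx + 1) = 4 s^2 g/mx + 2 s g/h + 2 s h/mx + 1 ≤ 4 s^2 g/mx + 4 s + 1`. -/

namespace Vale.Agent.Lib.P054

open Finset

private theorem gcd_pos' (a2 a3 : ℤ) (h : a2 ≠ 0 ∨ a3 ≠ 0) : 0 < Int.gcd a2 a3 := by
  rcases h with h | h
  · exact Int.gcd_pos_of_ne_zero_left a3 h
  · exact Int.gcd_pos_of_ne_zero_right a2 h

private theorem gcd_le_mx (a2 a3 : ℤ) (h : a2 ≠ 0 ∨ a3 ≠ 0) :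
    (Int.gcd a2 a3 : ℝ) ≤ mx a2 a3 := by
  unfold mx
  have key : ((Int.gcd a2 a3 : ℕ) : ℤ) ≤ max |a2| |a3| := by
    rcases h with h | h
    · exact (Int.le_of_dvd (abs_pos.mpr h) ((dvd_abs _ _).mpr (Int.gcd_dvd_left a2 a3))).trans
        (le_max_left _ _)
    · exact (Int.le_of_dvd (abs_pos.mpr h) ((dvd_abs _ _).mpr (Int.gcd_dvd_right a2 a3))).trans
        (le_max_right _ _)
  exact_mod_cast key

theorem card_plane (s : ℕ) (a1 a2 a3 k : ℤ) (h : a2 ≠ 0 ∨ a3 ≠ 0) :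
    (((box3 s).filter (fun b => dot (a1, a2, a3) b = k)).card : ℝ)
      ≤ (2 * s * (Int.gcd a1 (Int.gcd a2 a3) : ℝ) / (Int.gcd a2 a3 : ℝ) + 1)
        * (2 * s * (Int.gcd a2 a3 : ℝ) / mx a2 a3 + 1) := by
  classical
  have hpos := gcd_pos' a2 a3 h
  set hh := Int.gcd a2 a3 with hhdef
  set S := (box3 s).filter (fun b => dot (a1, a2, a3) b = k) with hS
  set A := (box s).filter (fun b => (hh : ℤ) ∣ k - a1 * b) with hA
  set L : ℝ := 2 * s * (hh : ℝ) / mx a2 a3 + 1 with hL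
  have hmx : 0 < mx a2 a3 :=
    lt_of_lt_of_le (by exact_mod_cast hpos) (gcd_le_mx a2 a3 h)
  have hL0 : 0 ≤ L := by positivity
  have hmaps : ∀ b ∈ S, b.1 ∈ A := by
    intro b hb
    have hb' := Finset.mem_filter.mp hb
    have hbox := (Finset.mem_product.mp hb'.1).1
    refine Finset.mem_filter.mpr ⟨hbox, ?_⟩
    have hd : a1 * b.1 + a2 * b.2.1 + a3 * b.2.2 = k := hb'.2
    have : k - a1 * b.1 = a2 * b.2.1 + a3 * b.2.2 := by linarith
    rw [this]
    exact dvd_add (Dvd.dvd.mul_right (Int.gcd_dvd_left a2 a3) _)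
      (Dvd.dvd.mul_right (Int.gcd_dvd_right a2 a3) _)
  have hsum : S.card = ∑ b1 ∈ A, (S.filter (fun b => b.1 = b1)).card :=
    Finset.card_eq_sum_card_fiberwise hmaps
  have hfib : ∀ b1 ∈ A, ((S.filter (fun b => b.1 = b1)).card : ℝ) ≤ L := by
    intro b1 _
    have hle : (S.filter (fun b => b.1 = b1)).card ≤
        ((box s ×ˢ box s).filter (fun b : ℤ × ℤ => a2 * b.1 + a3 * b.2 = k - a1 * b1)).card := by
      apply Finset.card_le_card_of_injOn (fun b => b.2)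
      · intro b hb
        have hb1 := Finset.mem_filter.mp (Finset.mem_coe.mp hb)
        have hb' := Finset.mem_filter.mp hb1.1
        have hbox := (Finset.mem_product.mp hb'.1).2
        refine Finset.mem_coe.mpr (Finset.mem_filter.mpr ⟨hbox, ?_⟩)
        have hd : a1 * b.1 + a2 * b.2.1 + a3 * b.2.2 = k := hb'.2
        rw [← hb1.2]
        linarith
      · intro b hb b' hb' hbb
        have hb1 := (Finset.mem_filter.mp (Finset.mem_coe.mp hb)).2
        have hb1' := (Finset.mem_filter.mp (Finset.mem_coe.mp hb')).2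
        exact Prod.ext (hb1.trans hb1'.symm) hbb
    calc ((S.filter (fun b => b.1 = b1)).card : ℝ)
        ≤ (((box s ×ˢ box s).filter
            (fun b : ℤ × ℤ => a2 * b.1 + a3 * b.2 = k - a1 * b1)).card : ℝ) := by
          exact_mod_cast hle
      _ ≤ L := card_line s a2 a3 (k - a1 * b1) h
  have hAcard := card_solv s hh hpos a1 k
  calc (S.card : ℝ) = ∑ b1 ∈ A, ((S.filter (fun b => b.1 = b1)).card : ℝ) := by
        rw [hsum]
        push_cast
        rfl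
    _ ≤ ∑ _b1 ∈ A, L := Finset.sum_le_sum hfib
    _ = (A.card : ℝ) * L := by rw [Finset.sum_const, nsmul_eq_mul]
    _ ≤ (2 * s * (Int.gcd a1 (hh : ℤ) : ℝ) / (hh : ℝ) + 1) * L :=
        mul_le_mul_of_nonneg_right hAcard hL0

theorem card_plane' (s : ℕ) (a1 a2 a3 k : ℤ) (h : a2 ≠ 0 ∨ a3 ≠ 0) :
    (((box3 s).filter (fun b => dot (a1, a2, a3) b = k)).card : ℝ)
      ≤ 4 * s ^ 2 * ((Int.gcd a1 (Int.gcd a2 a3) : ℝ) / mx a2 a3) + 4 * s + 1 := by
  refine (card_plane s a1 a2 a3 k h).trans ?_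
  have hpos := gcd_pos' a2 a3 h
  have hle := gcd_le_mx a2 a3 h
  set hh := Int.gcd a2 a3 with hhdef
  have hhR : (0 : ℝ) < (hh : ℝ) := by exact_mod_cast hpos
  have hmx : 0 < mx a2 a3 := lt_of_lt_of_le hhR hle
  have hg : (Int.gcd a1 (hh : ℤ) : ℝ) ≤ (hh : ℝ) := by
    have : Int.gcd a1 (hh : ℤ) ∣ hh := Int.natCast_dvd_natCast.mp (Int.gcd_dvd_right a1 (hh : ℤ))
    exact_mod_cast Nat.le_of_dvd hpos this
  set g : ℝ := (Int.gcd a1 (hh : ℤ) : ℝ) with hgdef
  set m : ℝ := mx a2 a3 with hm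
  have hs : (0 : ℝ) ≤ (s : ℝ) := Nat.cast_nonneg s
  have h1 : g / (hh : ℝ) ≤ 1 := (div_le_one hhR).mpr hg
  have h2 : (hh : ℝ) / m ≤ 1 := (div_le_one hmx).mpr hle
  have e : (2 * s * g / (hh : ℝ) + 1) * (2 * s * (hh : ℝ) / m + 1)
      = 4 * s ^ 2 * (g / m) + 2 * s * (g / (hh : ℝ)) + 2 * s * ((hh : ℝ) / m) + 1 := by
    field_simp
    ring
  rw [e]
  nlinarith [mul_le_mul_of_nonneg_left h1 hs, mul_le_mul_of_nonneg_left h2 hs]

end Vale.Agent.Lib.P054
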