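import Vale.Agent.Lib.P054.Defs

/-! M1. ROUTE: the elements of `[-s,s]` congruent to `c` modulo `q` are at most `2s/q + 1`
(e.g. `Int.Ioc_filter_modEq_card` / `Int.Ico_filter_modEq_card`, or: if the set is nonempty with least element `b0`, map
`b ↦ (b - b0)/q` injectively into `Finset.range (2s/q + 1)` (natural division), and `((2s/q : ℕ) : ℝ) ≤ 2s/q` by `Nat.cast_div_le`). -/

namespace Vale.Agent.Lib.P054

open Finset

theorem card_residue (s q : ℕ) (hq : 0 < q) (c : ℤ) :
    (((box s).filter (fun b => (q : ℤ) ∣ b - c)).card : ℝ) ≤ 2 * s / q + 1 := by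
  classical
  set T := (box s).filter (fun b => (q : ℤ) ∣ b - c) with hT
  have hqz : (0 : ℤ) < (q : ℤ) := by exact_mod_cast hq
  rcases T.eq_empty_or_nonempty with h | h
  · rw [h]
    simp only [card_empty, Nat.cast_zero]
    positivity
  · set b0 := T.min' h with hb0def
    have hb0 : b0 ∈ T := T.min'_mem h
    have hmem : ∀ b ∈ T, -(s : ℤ) ≤ b ∧ b ≤ s ∧ (q : ℤ) ∣ b - c := by
      intro b hb
      rw [hT, mem_filter, box, mem_Icc] at hb
      exact ⟨hb.1.1, hb.1.2, hb.2⟩
    have hdiv : ∀ b ∈ T, (q : ℤ) ∣ b - b0 := by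
      intro b hb
      have h1 := (hmem b hb).2.2
      have h2 := (hmem b0 hb0).2.2
      have : b - b0 = (b - c) - (b0 - c) := by ring
      rw [this]
      exact dvd_sub h1 h2
    have hnn : ∀ b ∈ T, 0 ≤ (b - b0) / (q : ℤ) := by
      intro b hb
      have : b0 ≤ b := T.min'_le b hb
      exact Int.ediv_nonneg (by linarith) hqz.le
    have hcard : T.card ≤ (Finset.range (2 * s / q + 1)).card := by
      apply Finset.card_le_card_of_injOn (fun b => ((b - b0) / (q : ℤ)).toNat)
      · intro b hb
        have hb' : b ∈ T := hb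
        have h1 : (b - b0) / (q : ℤ) ≤ ((2 * s / q : ℕ) : ℤ) := by
          rw [Int.natCast_div]
          push_cast
          apply Int.ediv_le_ediv hqz
          have := (hmem b hb').2.1
          have := (hmem b0 hb0).1
          linarith
        have h2 := hnn b hb'
        simp only [coe_range, Set.mem_Iio]
        omega
      · intro b hb b' hb' heq
        have hb1 : b ∈ T := hb
        have hb2 : b' ∈ T := hb'
        have e1 : (b - b0) / (q : ℤ) = (b' - b0) / (q : ℤ) := by
          have h1 := hnn b hb1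
          have h2 := hnn b' hb2
          have heq' : ((b - b0) / (q : ℤ)).toNat = ((b' - b0) / (q : ℤ)).toNat := heq
          omega
        have e2 := Int.mul_ediv_cancel' (hdiv b hb1)
        have e3 := Int.mul_ediv_cancel' (hdiv b' hb2)
        rw [e1] at e2
        linarith
    rw [card_range] at hcard
    have h3 : (T.card : ℝ) ≤ ((2 * s / q : ℕ) : ℝ) + 1 := by exact_mod_cast hcard
    have h4 : ((2 * s / q : ℕ) : ℝ) ≤ ((2 * s : ℕ) : ℝ) / q := Nat.cast_div_le
    push_cast at h4
    linarith

end Vale.Agent.Lib.P054
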