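import Vale.Agent.Lib.P054.Plane
import Vale.Agent.Lib.P054.GcdSum

/-! M7. ROUTE.
`card_orth_main`: by `card_plane'` each term is `≤ 4 s^2 (g/mx) + 4 s + 1`; sum: `4 s^2 * 72 s^2` by `gcd_sum`, and the number of `a` is
`≤ (2s+1)^3 ≤ 27 s^3`, `4 s + 1 ≤ 5 s`: total `≤ 288 s^4 + 135 s^4 = 423 s^4`.
`card_orth_deg`: here `a = (a1, 0, 0)` with `a1` in the box. If `a1 = 0` the term is `≤ card (box3 s) = (2s+1)^3`. If `a1 ≠ 0` then `b.1` is determined by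
`a1 * b.1 = k`, so `b ↦ b.2` is injective on the set and the term is `≤ (2s+1)^2`; there are `≤ 2s+1` such `a`. Total `≤ 2 (2s+1)^3 ≤ 54 s^3 ≤ 54 s^4`.
`card_orth`: `card = ∑_{a} card {b : ...}` (`Finset.card_filter_product`/`Finset.card_eq_sum_card_fiberwise`/`Finset.sum_product`), split the sum over `a` with
`Finset.sum_filter_add_sum_filter_not`. `423 + 54 ≤ 500`. -/

namespace Vale.Agent.Lib.P054

open Finset

private theorem card_box (s : ℕ) : (box s).card = 2 * s + 1 := by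
  unfold box
  rw [Int.card_Icc]
  omega

private theorem card_box3 (s : ℕ) : (box3 s).card = (2 * s + 1) ^ 3 := by
  unfold box3
  rw [Finset.card_product, Finset.card_product, card_box]
  ring

private theorem cube_le (s : ℕ) (hs : 1 ≤ s) : (2 * (s : ℝ) + 1) ^ 3 ≤ 27 * (s : ℝ) ^ 3 := by
  have hs' : (1 : ℝ) ≤ s := by exact_mod_cast hs
  have h1 : 2 * (s : ℝ) + 1 ≤ 3 * s := by linarith
  have h2 : (2 * (s : ℝ) + 1) ^ 3 ≤ (3 * (s : ℝ)) ^ 3 := pow_le_pow_left₀ (by positivity) h1 3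
  calc (2 * (s : ℝ) + 1) ^ 3 ≤ (3 * (s : ℝ)) ^ 3 := h2
    _ = 27 * (s : ℝ) ^ 3 := by ring

theorem card_orth_main (s : ℕ) (hs : 1 ≤ s) (k : ℤ) :
    ∑ a ∈ (box3 s).filter (fun a => a.2.1 ≠ 0 ∨ a.2.2 ≠ 0),
      (((box3 s).filter (fun b => dot a b = k)).card : ℝ) ≤ 423 * (s : ℝ) ^ 4 := by
  have hs' : (1 : ℝ) ≤ s := by exact_mod_cast hs
  have h1 : ∀ a ∈ (box3 s).filter (fun a => a.2.1 ≠ 0 ∨ a.2.2 ≠ 0),
      (((box3 s).filter (fun b => dot a b = k)).card : ℝ)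
      ≤ 4 * (s : ℝ) ^ 2 * ((Int.gcd a.1 (Int.gcd a.2.1 a.2.2) : ℝ) / mx a.2.1 a.2.2)
        + (4 * (s : ℝ) + 1) := by
    intro a ha
    have h := card_plane' s a.1 a.2.1 a.2.2 k (Finset.mem_filter.1 ha).2
    have e : ((a.1, a.2.1, a.2.2) : ℤ × ℤ × ℤ) = a := rfl
    rw [e] at h
    linarith
  have hc : (((box3 s).filter (fun a => a.2.1 ≠ 0 ∨ a.2.2 ≠ 0)).card : ℝ) ≤ 27 * (s : ℝ) ^ 3 := by
    have h2 : ((box3 s).filter (fun a => a.2.1 ≠ 0 ∨ a.2.2 ≠ 0)).card ≤ (2 * s + 1) ^ 3 := by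
      rw [← card_box3]; exact Finset.card_filter_le _ _
    have h3 : (((box3 s).filter (fun a => a.2.1 ≠ 0 ∨ a.2.2 ≠ 0)).card : ℝ)
        ≤ (2 * (s : ℝ) + 1) ^ 3 := by exact_mod_cast h2
    exact h3.trans (cube_le s hs)
  refine (Finset.sum_le_sum h1).trans ?_
  rw [Finset.sum_add_distrib, ← Finset.mul_sum, Finset.sum_const, nsmul_eq_mul]
  have h4 := gcd_sum s
  have h5 : 4 * (s : ℝ) ^ 2 * ∑ a ∈ (box3 s).filter (fun a => a.2.1 ≠ 0 ∨ a.2.2 ≠ 0),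
      (Int.gcd a.1 (Int.gcd a.2.1 a.2.2) : ℝ) / mx a.2.1 a.2.2 ≤ 4 * (s : ℝ) ^ 2 * (72 * (s : ℝ) ^ 2) :=
    mul_le_mul_of_nonneg_left h4 (by positivity)
  have h6 : (((box3 s).filter (fun a => a.2.1 ≠ 0 ∨ a.2.2 ≠ 0)).card : ℝ) * (4 * (s : ℝ) + 1)
      ≤ 27 * (s : ℝ) ^ 3 * (5 * (s : ℝ)) :=
    mul_le_mul hc (by linarith) (by positivity) (by positivity)
  calc _ ≤ 4 * (s : ℝ) ^ 2 * (72 * (s : ℝ) ^ 2) + 27 * (s : ℝ) ^ 3 * (5 * (s : ℝ)) := add_le_add h5 h6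
    _ = 423 * (s : ℝ) ^ 4 := by ring

private theorem term_le (s : ℕ) (k a1 : ℤ) :
    (((box3 s).filter (fun b => dot (a1, 0, 0) b = k)).card : ℝ)
      ≤ (2 * (s : ℝ) + 1) ^ 2 + (if a1 = 0 then (2 * (s : ℝ) + 1) ^ 3 else 0) := by
  by_cases h : a1 = 0
  · rw [if_pos h]
    have h2 : ((box3 s).filter (fun b => dot (a1, 0, 0) b = k)).card ≤ (2 * s + 1) ^ 3 := by
      rw [← card_box3]; exact Finset.card_filter_le _ _
    have h3 : (((box3 s).filter (fun b => dot (a1, 0, 0) b = k)).card : ℝ)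
        ≤ (2 * (s : ℝ) + 1) ^ 3 := by exact_mod_cast h2
    have h4 : (0 : ℝ) ≤ (2 * (s : ℝ) + 1) ^ 2 := by positivity
    linarith
  · rw [if_neg h, add_zero]
    have h2 : ((box3 s).filter (fun b => dot (a1, 0, 0) b = k)).card ≤ (box s ×ˢ box s).card := by
      refine Finset.card_le_card_of_injOn (fun b => b.2) ?_ ?_
      · intro b hb
        have hb' := (Finset.mem_filter.1 (Finset.mem_coe.1 hb)).1
        unfold box3 at hb'
        exact Finset.mem_coe.2 (Finset.mem_product.1 hb').2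
      · intro b hb b' hb' hbb
        have e1 := (Finset.mem_filter.1 (Finset.mem_coe.1 hb)).2
        have e2 := (Finset.mem_filter.1 (Finset.mem_coe.1 hb')).2
        simp only [dot, zero_mul, add_zero] at e1 e2
        have e3 : b.1 = b'.1 := mul_left_cancel₀ h (e1.trans e2.symm)
        exact Prod.ext e3 hbb
    rw [Finset.card_product, card_box] at h2
    have h3 : (((box3 s).filter (fun b => dot (a1, 0, 0) b = k)).card : ℝ)
        ≤ (2 * (s : ℝ) + 1) * (2 * (s : ℝ) + 1) := by exact_mod_cast h2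
    calc _ ≤ (2 * (s : ℝ) + 1) * (2 * (s : ℝ) + 1) := h3
      _ = (2 * (s : ℝ) + 1) ^ 2 := by ring

theorem card_orth_deg (s : ℕ) (hs : 1 ≤ s) (k : ℤ) :
    ∑ a ∈ (box3 s).filter (fun a => ¬ (a.2.1 ≠ 0 ∨ a.2.2 ≠ 0)),
      (((box3 s).filter (fun b => dot a b = k)).card : ℝ) ≤ 54 * (s : ℝ) ^ 4 := by
  have hs' : (1 : ℝ) ≤ s := by exact_mod_cast hs
  have hsub : (box3 s).filter (fun a => ¬ (a.2.1 ≠ 0 ∨ a.2.2 ≠ 0))
      ⊆ (box s).image (fun a1 : ℤ => ((a1, 0, 0) : ℤ × ℤ × ℤ)) := by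
    intro a ha
    obtain ⟨h1, h2⟩ := Finset.mem_filter.1 ha
    push Not at h2
    unfold box3 at h1
    refine Finset.mem_image.2 ⟨a.1, (Finset.mem_product.1 h1).1, ?_⟩
    exact Prod.ext rfl (Prod.ext h2.1.symm h2.2.symm)
  have hinj : Set.InjOn (fun a1 : ℤ => ((a1, 0, 0) : ℤ × ℤ × ℤ)) (box s : Set ℤ) := by
    intro x _ y _ hxy
    exact (Prod.ext_iff.1 hxy).1
  refine (Finset.sum_le_sum_of_subset_of_nonneg hsub (fun _ _ _ => Nat.cast_nonneg _)).trans ?_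
  rw [Finset.sum_image hinj]
  refine (Finset.sum_le_sum fun a1 _ => term_le s k a1).trans ?_
  rw [Finset.sum_add_distrib, Finset.sum_const, nsmul_eq_mul, card_box]
  have h0 : ∑ a1 ∈ box s, (if a1 = 0 then (2 * (s : ℝ) + 1) ^ 3 else 0) ≤ (2 * (s : ℝ) + 1) ^ 3 := by
    rw [Finset.sum_ite_eq']
    split_ifs
    · exact le_rfl
    · positivity
  have h1 := cube_le s hs
  have h2 : (s : ℝ) ^ 3 ≤ (s : ℝ) ^ 4 := by
    have : (s : ℝ) ^ 4 = (s : ℝ) ^ 3 * s := by ring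
    rw [this]
    exact le_mul_of_one_le_right (by positivity) hs'
  push_cast
  have h3 : (2 * (s : ℝ) + 1) * (2 * (s : ℝ) + 1) ^ 2 = (2 * (s : ℝ) + 1) ^ 3 := by ring
  rw [h3]
  linarith

theorem card_orth (s : ℕ) (hs : 1 ≤ s) (k : ℤ) :
    (((box3 s ×ˢ box3 s).filter (fun p => dot p.1 p.2 = k)).card : ℝ) ≤ 500 * (s : ℝ) ^ 4 := by
  have e : ((box3 s ×ˢ box3 s).filter (fun p => dot p.1 p.2 = k)).card
      = ∑ a ∈ box3 s, ((box3 s).filter (fun b => dot a b = k)).card := by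
    rw [Finset.card_filter, Finset.sum_product]
    refine Finset.sum_congr rfl fun a _ => ?_
    rw [Finset.card_filter]
  rw [e]
  push_cast
  rw [← Finset.sum_filter_add_sum_filter_not (box3 s) (fun a => a.2.1 ≠ 0 ∨ a.2.2 ≠ 0)]
  have h1 := card_orth_main s hs k
  have h2 := card_orth_deg s hs k
  have h3 : (0 : ℝ) ≤ (s : ℝ) ^ 4 := by positivity
  linarith

end Vale.Agent.Lib.P054
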